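import Mathlib
import Vale.Agent.Lib.P162.Defs
import Vale.Agent.Lib.P162.RDefs
import Vale.Agent.Lib.P162.CVDefs
import Vale.Agent.Lib.P162.helper23.ProdTv
import Vale.Agent.Lib.P162.helper95.KmatBasic
import Vale.Agent.Lib.P162.helper43.LumpTail

/-!
# P162, pool job CV4 (backup copy, helper11): the Cauchy-Schwarz induction

The two-walker kernel started with both walkers in the same position gives, for every
configuration of the old cards, a positive semidefinite matrix in the two walker positions, and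
the one-walker law is dominated by it in the Cauchy-Schwarz sense.

The induction is carried out for abstract kernels (first part); the second part instantiates it
with the kernels of the Thorp shuffle, using rewriting with named lemmas only.
-/

namespace Vale.Agent.Lib.P162.H11CV

open Finset BigOperators

/-! ## Abstract part -/

/-- Weighted Cauchy-Schwarz: `r i ^ 2 ≤ f i * g i` termwise gives the same for the sums. -/
theorem wcs {ι : Type*} (s : Finset ι) (r f g : ι → ℝ) (hf : ∀ i ∈ s, 0 ≤ f i)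
    (hg : ∀ i ∈ s, 0 ≤ g i) (hr : ∀ i ∈ s, r i ^ 2 ≤ f i * g i) :
    (∑ i ∈ s, r i) ^ 2 ≤ (∑ i ∈ s, f i) * ∑ i ∈ s, g i := by
  have h1 : ∀ i ∈ s, |r i| ≤ Real.sqrt (f i) * Real.sqrt (g i) := by
    intro i hi
    rw [← Real.sqrt_mul (hf i hi)]
    exact Real.abs_le_sqrt (hr i hi)
  have h2 : |∑ i ∈ s, r i| ≤ ∑ i ∈ s, Real.sqrt (f i) * Real.sqrt (g i) :=
    (Finset.abs_sum_le_sum_abs _ _).trans (Finset.sum_le_sum h1)
  have h3 : (∑ i ∈ s, Real.sqrt (f i) * Real.sqrt (g i)) ^ 2 ≤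
      (∑ i ∈ s, Real.sqrt (f i) ^ 2) * ∑ i ∈ s, Real.sqrt (g i) ^ 2 :=
    Finset.sum_mul_sq_le_sq_mul_sq s _ _
  calc (∑ i ∈ s, r i) ^ 2 = |∑ i ∈ s, r i| ^ 2 := (sq_abs _).symm
    _ ≤ (∑ i ∈ s, Real.sqrt (f i) * Real.sqrt (g i)) ^ 2 :=
        pow_le_pow_left₀ (abs_nonneg _) h2 2
    _ ≤ (∑ i ∈ s, Real.sqrt (f i) ^ 2) * ∑ i ∈ s, Real.sqrt (g i) ^ 2 := h3
    _ = (∑ i ∈ s, f i) * ∑ i ∈ s, g i := by
        rw [Finset.sum_congr rfl (fun i hi => Real.sq_sqrt (hf i hi)),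
          Finset.sum_congr rfl (fun i hi => Real.sq_sqrt (hg i hi))]

theorem sum3_rot {A B C : Type*} [Fintype A] [Fintype B] [Fintype C] (F : A → B → C → ℝ) :
    ∑ a, ∑ b, ∑ c, F a b c = ∑ c, ∑ a, ∑ b, F a b c := by
  calc ∑ a, ∑ b, ∑ c, F a b c = ∑ a, ∑ c, ∑ b, F a b c :=
        Finset.sum_congr rfl (fun a _ => Finset.sum_comm)
    _ = ∑ c, ∑ a, ∑ b, F a b c := Finset.sum_comm

/-- Bilinear rearrangement for one intermediate configuration. -/
theorem quad_step {α : Type*} [Fintype α] (ξ : α → ℝ) (m k : α → α → ℝ) (c : ℝ) :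
    ∑ q1, ∑ q1', ξ q1 * ξ q1' * ∑ q, ∑ q', m q q' * (k q q1 * k q' q1' / c)
      = (∑ q, ∑ q', (∑ q1, ξ q1 * k q q1) * (∑ q1', ξ q1' * k q' q1') * m q q') / c := by
  have hL : ∀ q1 q1', ξ q1 * ξ q1' * ∑ q, ∑ q', m q q' * (k q q1 * k q' q1' / c)
      = ∑ q, ∑ q', ξ q1 * ξ q1' * (m q q' * (k q q1 * k q' q1' / c)) := by
    intro q1 q1'
    rw [Finset.mul_sum]
    refine Finset.sum_congr rfl (fun q _ => ?_)
    rw [Finset.mul_sum]
  have hR : ∀ q q', (∑ q1, ξ q1 * k q q1) * (∑ q1', ξ q1' * k q' q1') * m q q' / c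
      = ∑ q1, ∑ q1', ξ q1 * ξ q1' * (m q q' * (k q q1 * k q' q1' / c)) := by
    intro q q'
    rw [Finset.sum_mul_sum, Finset.sum_mul, Finset.sum_div]
    refine Finset.sum_congr rfl (fun q1 _ => ?_)
    rw [Finset.sum_mul, Finset.sum_div]
    refine Finset.sum_congr rfl (fun q1' _ => ?_)
    ring
  calc ∑ q1, ∑ q1', ξ q1 * ξ q1' * ∑ q, ∑ q', m q q' * (k q q1 * k q' q1' / c)
      = ∑ q1, ∑ q1', ∑ q, ∑ q', ξ q1 * ξ q1' * (m q q' * (k q q1 * k q' q1' / c)) :=
        Finset.sum_congr rfl (fun q1 _ => Finset.sum_congr rfl (fun q1' _ => hL q1 q1'))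
    _ = ∑ q, ∑ q1, ∑ q1', ∑ q', ξ q1 * ξ q1' * (m q q' * (k q q1 * k q' q1' / c)) :=
        sum3_rot (fun q1 q1' q => ∑ q', ξ q1 * ξ q1' * (m q q' * (k q q1 * k q' q1' / c)))
    _ = ∑ q, ∑ q', ∑ q1, ∑ q1', ξ q1 * ξ q1' * (m q q' * (k q q1 * k q' q1' / c)) :=
        Finset.sum_congr rfl (fun q _ =>
          sum3_rot (fun q1 q1' q' => ξ q1 * ξ q1' * (m q q' * (k q q1 * k q' q1' / c))))
    _ = ∑ q, ∑ q', (∑ q1, ξ q1 * k q q1) * (∑ q1', ξ q1' * k q' q1') * m q q' / c :=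
        Finset.sum_congr rfl (fun q _ => Finset.sum_congr rfl (fun q' _ => (hR q q').symm))
    _ = (∑ q, ∑ q', (∑ q1, ξ q1 * k q q1) * (∑ q1', ξ q1' * k q' q1') * m q q') / c := by
        rw [Finset.sum_div]
        refine Finset.sum_congr rfl (fun q _ => ?_)
        rw [Finset.sum_div]

/-- The abstract induction: positivity of the two-walker quadratic form and the Cauchy-Schwarz
domination of the one-walker linear form, for kernels given by their one-step recursions. -/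
theorem abs_psd_cs {α V : Type*} [Fintype α] [Fintype V]
    (k : V → V → α → α → ℝ) (k0 : V → V → ℝ)
    (M : ℕ → V → α → α → ℝ) (A : ℕ → V → α → ℝ) (B : ℕ → V → ℝ)
    (hk : ∀ v v1 q q1, 0 ≤ k v v1 q q1)
    (hk0 : ∀ v v1 q, ∑ q1, k v v1 q q1 = k0 v v1)
    (hk0nn : ∀ v v1, 0 ≤ k0 v v1)
    (hB : ∀ t v, 0 ≤ B t v)
    (hBs : ∀ t v1, B (t + 1) v1 = ∑ v, B t v * k0 v v1)
    (hAs : ∀ t v1 q1, A (t + 1) v1 q1 = ∑ v, ∑ q, A t v q * k v v1 q q1)
    (hMs : ∀ t v1 q1 q1', M (t + 1) v1 q1 q1'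
      = ∑ v, ∑ q, ∑ q', M t v q q' * (k v v1 q q1 * k v v1 q' q1' / k0 v v1))
    (hpsd0 : ∀ v (ξ : α → ℝ), 0 ≤ ∑ q, ∑ q', ξ q * ξ q' * M 0 v q q')
    (hcs0 : ∀ v (ξ : α → ℝ), (∑ q, ξ q * A 0 v q) ^ 2
      ≤ B 0 v * ∑ q, ∑ q', ξ q * ξ q' * M 0 v q q') :
    ∀ t v (ξ : α → ℝ), 0 ≤ ∑ q, ∑ q', ξ q * ξ q' * M t v q q' ∧
      (∑ q, ξ q * A t v q) ^ 2 ≤ B t v * ∑ q, ∑ q', ξ q * ξ q' * M t v q q' := by
  intro t
  induction t with
  | zero => exact fun v ξ => ⟨hpsd0 v ξ, hcs0 v ξ⟩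
  | succ t ih =>
    intro v1 ξ
    have E1 : ∑ q1, ∑ q1', ξ q1 * ξ q1' * M (t + 1) v1 q1 q1'
        = ∑ v, (∑ q, ∑ q', (∑ q1, ξ q1 * k v v1 q q1) * (∑ q1', ξ q1' * k v v1 q' q1')
            * M t v q q') / k0 v v1 := by
      calc ∑ q1, ∑ q1', ξ q1 * ξ q1' * M (t + 1) v1 q1 q1'
          = ∑ q1, ∑ q1', ∑ v, ξ q1 * ξ q1'
              * ∑ q, ∑ q', M t v q q' * (k v v1 q q1 * k v v1 q' q1' / k0 v v1) :=
            Finset.sum_congr rfl (fun q1 _ => Finset.sum_congr rfl (fun q1' _ => by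
              rw [hMs, Finset.mul_sum]))
        _ = ∑ v, ∑ q1, ∑ q1', ξ q1 * ξ q1'
              * ∑ q, ∑ q', M t v q q' * (k v v1 q q1 * k v v1 q' q1' / k0 v v1) :=
            sum3_rot (fun q1 q1' v => ξ q1 * ξ q1'
              * ∑ q, ∑ q', M t v q q' * (k v v1 q q1 * k v v1 q' q1' / k0 v v1))
        _ = ∑ v, (∑ q, ∑ q', (∑ q1, ξ q1 * k v v1 q q1) * (∑ q1', ξ q1' * k v v1 q' q1')
              * M t v q q') / k0 v v1 :=
            Finset.sum_congr rfl (fun v _ => quad_step ξ (M t v) (k v v1) (k0 v v1))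
    have E2 : ∑ q1, ξ q1 * A (t + 1) v1 q1
        = ∑ v, ∑ q, (∑ q1, ξ q1 * k v v1 q q1) * A t v q := by
      calc ∑ q1, ξ q1 * A (t + 1) v1 q1
          = ∑ q1, ∑ v, ∑ q, ξ q1 * (A t v q * k v v1 q q1) :=
            Finset.sum_congr rfl (fun q1 _ => by
              rw [hAs, Finset.mul_sum]
              refine Finset.sum_congr rfl (fun v _ => ?_)
              rw [Finset.mul_sum])
        _ = ∑ v, ∑ q, ∑ q1, ξ q1 * (A t v q * k v v1 q q1) :=
            (sum3_rot (fun v q q1 => ξ q1 * (A t v q * k v v1 q q1))).symm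
        _ = ∑ v, ∑ q, (∑ q1, ξ q1 * k v v1 q q1) * A t v q :=
            Finset.sum_congr rfl (fun v _ => Finset.sum_congr rfl (fun q _ => by
              rw [Finset.sum_mul]
              refine Finset.sum_congr rfl (fun q1 _ => ?_)
              ring))
    have Znn : ∀ v, 0 ≤ ∑ q, ∑ q', (∑ q1, ξ q1 * k v v1 q q1)
        * (∑ q1', ξ q1' * k v v1 q' q1') * M t v q q' :=
      fun v => (ih v (fun q => ∑ q1, ξ q1 * k v v1 q q1)).1
    refine ⟨?_, ?_⟩
    · rw [E1]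
      exact Finset.sum_nonneg (fun v _ => div_nonneg (Znn v) (hk0nn v v1))
    · rw [E1, E2, hBs]
      refine wcs Finset.univ _ _ _ (fun v _ => mul_nonneg (hB t v) (hk0nn v v1))
        (fun v _ => div_nonneg (Znn v) (hk0nn v v1)) (fun v _ => ?_)
      by_cases h0 : k0 v v1 = 0
      · have hz : ∀ q q1, k v v1 q q1 = 0 := by
          intro q q1
          have hs := hk0 v v1 q
          rw [h0] at hs
          exact (Finset.sum_eq_zero_iff_of_nonneg (fun q1 _ => hk v v1 q q1)).1 hs q1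
            (Finset.mem_univ q1)
        have hη : ∀ q, ∑ q1, ξ q1 * k v v1 q q1 = 0 := by
          intro q
          exact Finset.sum_eq_zero (fun q1 _ => by rw [hz q q1, mul_zero])
        have hX : ∑ q, (∑ q1, ξ q1 * k v v1 q q1) * A t v q = 0 :=
          Finset.sum_eq_zero (fun q _ => by rw [hη q, zero_mul])
        have h3 : (0 : ℝ) ^ 2 = 0 := by norm_num
        rw [hX, h3]
        exact mul_nonneg (mul_nonneg (hB t v) (hk0nn v v1)) (div_nonneg (Znn v) (hk0nn v v1))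
      · have h2 := (ih v (fun q => ∑ q1, ξ q1 * k v v1 q q1)).2
        calc (∑ q, (∑ q1, ξ q1 * k v v1 q q1) * A t v q) ^ 2
            ≤ B t v * ∑ q, ∑ q', (∑ q1, ξ q1 * k v v1 q q1)
                * (∑ q1', ξ q1' * k v v1 q' q1') * M t v q q' := h2
          _ = B t v * k0 v v1 * ((∑ q, ∑ q', (∑ q1, ξ q1 * k v v1 q q1)
                * (∑ q1', ξ q1' * k v v1 q' q1') * M t v q q') / k0 v v1) := by
              field_simp

/-- Base case of the quadratic form. -/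
theorem base_quad {α : Type*} [Fintype α] [DecidableEq α] (p : α) (P : Prop) [Decidable P]
    (ξ : α → ℝ) (m : α → α → ℝ)
    (hm : ∀ q q', m q q' = if p = q ∧ p = q' ∧ P then 1 else 0) :
    ∑ q, ∑ q', ξ q * ξ q' * m q q' = if P then ξ p * ξ p else 0 := by
  by_cases hP : P
  · rw [if_pos hP, Finset.sum_eq_single p]
    · rw [Finset.sum_eq_single p]
      · rw [hm, if_pos ⟨rfl, rfl, hP⟩, mul_one]
      · intro b _ hb
        rw [hm, if_neg (fun hc => hb hc.2.1.symm), mul_zero]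
      · intro hc
        exact absurd (Finset.mem_univ p) hc
    · intro b _ hb
      refine Finset.sum_eq_zero (fun q' _ => ?_)
      rw [hm, if_neg (fun hc => hb hc.1.symm), mul_zero]
    · intro hc
      exact absurd (Finset.mem_univ p) hc
  · rw [if_neg hP]
    refine Finset.sum_eq_zero (fun q _ => Finset.sum_eq_zero (fun q' _ => ?_))
    rw [hm, if_neg (fun hc => hP hc.2.2), mul_zero]

/-- Base case of the linear form. -/
theorem base_lin {α : Type*} [Fintype α] [DecidableEq α] (p : α) (P : Prop) [Decidable P]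
    (ξ : α → ℝ) (a : α → ℝ) (ha : ∀ q, a q = if p = q ∧ P then 1 else 0) :
    ∑ q, ξ q * a q = if P then ξ p else 0 := by
  by_cases hP : P
  · rw [if_pos hP, Finset.sum_eq_single p]
    · rw [ha, if_pos ⟨rfl, hP⟩, mul_one]
    · intro b _ hb
      rw [ha, if_neg (fun hc => hb hc.1.symm), mul_zero]
    · intro hc
      exact absurd (Finset.mem_univ p) hc
  · rw [if_neg hP]
    refine Finset.sum_eq_zero (fun q _ => ?_)
    rw [ha, if_neg (fun hc => hP hc.2), mul_zero]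

theorem sum_delta {α : Type*} [Fintype α] [DecidableEq α] (q : α) (a : α → ℝ) :
    ∑ x, (if x = q then (1 : ℝ) else 0) * a x = a q := by
  rw [Finset.sum_eq_single q]
  · rw [if_pos rfl, one_mul]
  · intro b _ hb
    rw [if_neg hb, zero_mul]
  · intro hc
    exact absurd (Finset.mem_univ q) hc

theorem sum_delta2 {α : Type*} [Fintype α] [DecidableEq α] (q q' : α) (m : α → α → ℝ) :
    ∑ x, ∑ y, (if x = q then (1 : ℝ) else 0) * (if y = q' then (1 : ℝ) else 0) * m x y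
      = m q q' := by
  rw [Finset.sum_eq_single q]
  · rw [Finset.sum_eq_single q']
    · rw [if_pos rfl, if_pos rfl, one_mul, one_mul]
    · intro b _ hb
      rw [if_neg hb, mul_zero, zero_mul]
    · intro hc
      exact absurd (Finset.mem_univ q') hc
  · intro b _ hb
    exact Finset.sum_eq_zero (fun y _ => by rw [if_neg hb, zero_mul, zero_mul])
  · intro hc
    exact absurd (Finset.mem_univ q) hc

/-- A positive semidefinite kernel: off-diagonal entries against diagonal entries. -/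
theorem psd_two {α : Type*} [Fintype α] [DecidableEq α] (m : α → α → ℝ)
    (hpsd : ∀ ξ : α → ℝ, 0 ≤ ∑ x, ∑ y, ξ x * ξ y * m x y) (q q' : α) :
    m q q' + m q' q ≤ m q q + m q' q' := by
  have h1 : 0 ≤ ∑ x, ∑ y, ((if x = q then (1 : ℝ) else 0) - (if x = q' then (1 : ℝ) else 0))
      * ((if y = q then (1 : ℝ) else 0) - (if y = q' then (1 : ℝ) else 0)) * m x y :=
    hpsd (fun x => (if x = q then (1 : ℝ) else 0) - (if x = q' then (1 : ℝ) else 0))
  have e1 : ∀ x y, ((if x = q then (1 : ℝ) else 0) - (if x = q' then (1 : ℝ) else 0))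
      * ((if y = q then (1 : ℝ) else 0) - (if y = q' then (1 : ℝ) else 0)) * m x y
      = (if x = q then (1 : ℝ) else 0) * (if y = q then (1 : ℝ) else 0) * m x y
        - (if x = q then (1 : ℝ) else 0) * (if y = q' then (1 : ℝ) else 0) * m x y
        - (if x = q' then (1 : ℝ) else 0) * (if y = q then (1 : ℝ) else 0) * m x y
        + (if x = q' then (1 : ℝ) else 0) * (if y = q' then (1 : ℝ) else 0) * m x y := by
    intro x y
    ring
  simp only [e1, Finset.sum_add_distrib, Finset.sum_sub_distrib, sum_delta2] at h1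
  linarith

theorem two_le_of_swap (a b c d : ℝ) (h1 : a + b ≤ c + d) (h2 : b = a) : 2 * a ≤ c + d := by
  rw [h2] at h1
  linarith

theorem sq_le_of_if (P : Prop) [Decidable P] (x : ℝ) :
    (if P then x else 0) ^ 2 ≤ (if P then (1 : ℝ) else 0) * (if P then x * x else 0) := by
  by_cases hP : P
  · rw [if_pos hP, if_pos hP, if_pos hP, one_mul, sq]
  · rw [if_neg hP, if_neg hP, if_neg hP]
    norm_num

/-! ## The kernels of the Thorp shuffle -/

theorem B_zero (h j : ℕ) [NeZero h] (w v : Fin j → ZMod (2 * h)) :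
    (Kmat h j ^ 0) w v = if w = v then 1 else 0 := by
  rw [pow_zero, Matrix.one_apply]

theorem A_zero (h j : ℕ) [NeZero h] (p : ZMod (2 * h)) (w v : Fin j → ZMod (2 * h))
    (q : ZMod (2 * h)) :
    (Kmat h (j + 1) ^ 0) (Fin.cons p w : Fin (j + 1) → ZMod (2 * h)) (Fin.cons q v)
      = if p = q ∧ w = v then 1 else 0 := by
  rw [pow_zero, Matrix.one_apply]
  exact if_congr Fin.cons_inj rfl rfl

theorem M_zero (h j : ℕ) [NeZero h] (p : ZMod (2 * h)) (w v : Fin j → ZMod (2 * h))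
    (q q' : ZMod (2 * h)) :
    (Qmat h j ^ 0) (Fin.cons p (Fin.cons p w) : Fin (j + 2) → ZMod (2 * h))
        (Fin.cons q (Fin.cons q' v))
      = if p = q ∧ p = q' ∧ w = v then 1 else 0 := by
  rw [pow_zero, Matrix.one_apply]
  exact if_congr (Fin.cons_inj.trans (and_congr Iff.rfl Fin.cons_inj)) rfl rfl

theorem B_step (h j : ℕ) [NeZero h] (t : ℕ) (w v1 : Fin j → ZMod (2 * h)) :
    (Kmat h j ^ (t + 1)) w v1 = ∑ v, (Kmat h j ^ t) w v * Kmat h j v v1 := by
  rw [pow_succ, Matrix.mul_apply]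

theorem A_step (h j : ℕ) [NeZero h] (t : ℕ) (p : ZMod (2 * h)) (w v1 : Fin j → ZMod (2 * h))
    (q1 : ZMod (2 * h)) :
    (Kmat h (j + 1) ^ (t + 1)) (Fin.cons p w : Fin (j + 1) → ZMod (2 * h)) (Fin.cons q1 v1)
      = ∑ v : Fin j → ZMod (2 * h), ∑ q : ZMod (2 * h),
          (Kmat h (j + 1) ^ t) (Fin.cons p w : Fin (j + 1) → ZMod (2 * h)) (Fin.cons q v)
            * Kmat h (j + 1) (Fin.cons q v) (Fin.cons q1 v1) := by
  rw [pow_succ, Matrix.mul_apply, H23.sum_fin_succ_fun, Finset.sum_comm]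

theorem M_step (h j : ℕ) [NeZero h] (t : ℕ) (p : ZMod (2 * h)) (w v1 : Fin j → ZMod (2 * h))
    (q1 q1' : ZMod (2 * h)) :
    (Qmat h j ^ (t + 1)) (Fin.cons p (Fin.cons p w) : Fin (j + 2) → ZMod (2 * h))
        (Fin.cons q1 (Fin.cons q1' v1))
      = ∑ v : Fin j → ZMod (2 * h), ∑ q : ZMod (2 * h), ∑ q' : ZMod (2 * h),
          (Qmat h j ^ t) (Fin.cons p (Fin.cons p w) : Fin (j + 2) → ZMod (2 * h))
              (Fin.cons q (Fin.cons q' v))
            * (Kmat h (j + 1) (Fin.cons q v) (Fin.cons q1 v1)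
              * Kmat h (j + 1) (Fin.cons q' v) (Fin.cons q1' v1) / Kmat h j v v1) := by
  rw [pow_succ, Matrix.mul_apply, H23.sum_fin_succ_fun]
  calc ∑ q : ZMod (2 * h), ∑ y' : Fin (j + 1) → ZMod (2 * h),
          (Qmat h j ^ t) (Fin.cons p (Fin.cons p w) : Fin (j + 2) → ZMod (2 * h))
              (Fin.cons q y')
            * Qmat h j (Fin.cons q y') (Fin.cons q1 (Fin.cons q1' v1))
      = ∑ q : ZMod (2 * h), ∑ q' : ZMod (2 * h), ∑ v : Fin j → ZMod (2 * h),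
          (Qmat h j ^ t) (Fin.cons p (Fin.cons p w) : Fin (j + 2) → ZMod (2 * h))
              (Fin.cons q (Fin.cons q' v))
            * Qmat h j (Fin.cons q (Fin.cons q' v)) (Fin.cons q1 (Fin.cons q1' v1)) :=
        Finset.sum_congr rfl (fun q _ => H23.sum_fin_succ_fun j _)
    _ = ∑ v : Fin j → ZMod (2 * h), ∑ q : ZMod (2 * h), ∑ q' : ZMod (2 * h),
          (Qmat h j ^ t) (Fin.cons p (Fin.cons p w) : Fin (j + 2) → ZMod (2 * h))
              (Fin.cons q (Fin.cons q' v))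
            * Qmat h j (Fin.cons q (Fin.cons q' v)) (Fin.cons q1 (Fin.cons q1' v1)) :=
        sum3_rot _
    _ = ∑ v : Fin j → ZMod (2 * h), ∑ q : ZMod (2 * h), ∑ q' : ZMod (2 * h),
          (Qmat h j ^ t) (Fin.cons p (Fin.cons p w) : Fin (j + 2) → ZMod (2 * h))
              (Fin.cons q (Fin.cons q' v))
            * (Kmat h (j + 1) (Fin.cons q v) (Fin.cons q1 v1)
              * Kmat h (j + 1) (Fin.cons q' v) (Fin.cons q1' v1) / Kmat h j v v1) := rfl

/-- Both statements of the induction for the Thorp kernels. -/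
theorem psd_cs (h j : ℕ) [NeZero h] (t : ℕ) (p : ZMod (2 * h)) (w v : Fin j → ZMod (2 * h))
    (ξ : ZMod (2 * h) → ℝ) :
    0 ≤ ∑ q : ZMod (2 * h), ∑ q' : ZMod (2 * h), ξ q * ξ q'
        * (Qmat h j ^ t) (Fin.cons p (Fin.cons p w)) (Fin.cons q (Fin.cons q' v)) ∧
      (∑ q : ZMod (2 * h), ξ q * (Kmat h (j + 1) ^ t) (Fin.cons p w) (Fin.cons q v)) ^ 2
        ≤ (Kmat h j ^ t) w v * ∑ q : ZMod (2 * h), ∑ q' : ZMod (2 * h), ξ q * ξ q'
          * (Qmat h j ^ t) (Fin.cons p (Fin.cons p w)) (Fin.cons q (Fin.cons q' v)) := by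
  have hq0 : ∀ (v : Fin j → ZMod (2 * h)) (ξ : ZMod (2 * h) → ℝ),
      ∑ q : ZMod (2 * h), ∑ q' : ZMod (2 * h), ξ q * ξ q'
        * (Qmat h j ^ 0) (Fin.cons p (Fin.cons p w) : Fin (j + 2) → ZMod (2 * h))
            (Fin.cons q (Fin.cons q' v))
      = if w = v then ξ p * ξ p else 0 :=
    fun v ξ => base_quad p (w = v) ξ _ (fun q q' => M_zero h j p w v q q')
  have hl0 : ∀ (v : Fin j → ZMod (2 * h)) (ξ : ZMod (2 * h) → ℝ),
      ∑ q : ZMod (2 * h), ξ q
        * (Kmat h (j + 1) ^ 0) (Fin.cons p w : Fin (j + 1) → ZMod (2 * h)) (Fin.cons q v)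
      = if w = v then ξ p else 0 :=
    fun v ξ => base_lin p (w = v) ξ _ (fun q => A_zero h j p w v q)
  exact abs_psd_cs
    (k := fun v v1 q q1 => Kmat h (j + 1) (Fin.cons q v) (Fin.cons q1 v1))
    (k0 := fun v v1 => Kmat h j v v1)
    (M := fun t v q q' => (Qmat h j ^ t) (Fin.cons p (Fin.cons p w)) (Fin.cons q (Fin.cons q' v)))
    (A := fun t v q => (Kmat h (j + 1) ^ t) (Fin.cons p w) (Fin.cons q v))
    (B := fun t v => (Kmat h j ^ t) w v)
    (fun v v1 q q1 => H95.stepProb_nonneg h (j + 1) _ _)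
    (fun v v1 q => H43.step_tail h j (Fin.cons q v) v1)
    (fun v v1 => H95.stepProb_nonneg h j v v1)
    (fun t v => H95.Kmat_pow_nonneg h j t w v)
    (fun t v1 => B_step h j t w v1)
    (fun t v1 q1 => A_step h j t p w v1 q1)
    (fun t v1 q1 q1' => M_step h j t p w v1 q1 q1')
    (fun v ξ => by
      rw [hq0 v ξ]
      by_cases hv : w = v
      · rw [if_pos hv]
        exact mul_self_nonneg _
      · rw [if_neg hv])
    (fun v ξ => by
      rw [hq0 v ξ, hl0 v ξ, B_zero h j w v]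
      exact sq_le_of_if (w = v) (ξ p))
    t v ξ

theorem Qpow_psd (h j : ℕ) [NeZero h] (t : ℕ) (p : ZMod (2 * h)) (w v : Fin j → ZMod (2 * h))
    (ξ : ZMod (2 * h) → ℝ) :
    0 ≤ ∑ q : ZMod (2 * h), ∑ q' : ZMod (2 * h), ξ q * ξ q'
      * (Qmat h j ^ t) (Fin.cons p (Fin.cons p w)) (Fin.cons q (Fin.cons q' v)) :=
  (psd_cs h j t p w v ξ).1

theorem cs_prop (h j : ℕ) [NeZero h] (t : ℕ) (p : ZMod (2 * h)) (w v : Fin j → ZMod (2 * h))
    (ξ : ZMod (2 * h) → ℝ) :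
    (∑ q : ZMod (2 * h), ξ q * (Kmat h (j + 1) ^ t) (Fin.cons p w) (Fin.cons q v)) ^ 2
      ≤ (Kmat h j ^ t) w v * ∑ q : ZMod (2 * h), ∑ q' : ZMod (2 * h), ξ q * ξ q'
        * (Qmat h j ^ t) (Fin.cons p (Fin.cons p w)) (Fin.cons q (Fin.cons q' v)) :=
  (psd_cs h j t p w v ξ).2

theorem diag_cs (h j : ℕ) [NeZero h] (t : ℕ) (p q : ZMod (2 * h)) (w v : Fin j → ZMod (2 * h)) :
    ((Kmat h (j + 1) ^ t) (Fin.cons p w) (Fin.cons q v)) ^ 2
      ≤ (Kmat h j ^ t) w v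
        * (Qmat h j ^ t) (Fin.cons p (Fin.cons p w)) (Fin.cons q (Fin.cons q v)) := by
  have h1 : (∑ x : ZMod (2 * h), (if x = q then (1 : ℝ) else 0)
        * (Kmat h (j + 1) ^ t) (Fin.cons p w : Fin (j + 1) → ZMod (2 * h)) (Fin.cons x v)) ^ 2
      ≤ (Kmat h j ^ t) w v * ∑ x : ZMod (2 * h), ∑ y : ZMod (2 * h),
          (if x = q then (1 : ℝ) else 0) * (if y = q then (1 : ℝ) else 0)
          * (Qmat h j ^ t) (Fin.cons p (Fin.cons p w) : Fin (j + 2) → ZMod (2 * h))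
              (Fin.cons x (Fin.cons y v)) :=
    cs_prop h j t p w v (fun x => if x = q then (1 : ℝ) else 0)
  rw [sum_delta q (fun x => (Kmat h (j + 1) ^ t)
      (Fin.cons p w : Fin (j + 1) → ZMod (2 * h)) (Fin.cons x v)),
    sum_delta2 q q (fun x y => (Qmat h j ^ t)
      (Fin.cons p (Fin.cons p w) : Fin (j + 2) → ZMod (2 * h)) (Fin.cons x (Fin.cons y v)))] at h1
  exact h1

/-- `Qpow_two_le` from the exchange symmetry of the two walkers (job CV3) as a hypothesis. -/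
theorem Qpow_two_le_of (h j : ℕ) [NeZero h]
    (hswap : ∀ (t : ℕ) (p p' q q' : ZMod (2 * h)) (w v : Fin j → ZMod (2 * h)),
      (Qmat h j ^ t) (Fin.cons p (Fin.cons p' w)) (Fin.cons q (Fin.cons q' v))
        = (Qmat h j ^ t) (Fin.cons p' (Fin.cons p w)) (Fin.cons q' (Fin.cons q v)))
    (t : ℕ) (p q q' : ZMod (2 * h)) (w v : Fin j → ZMod (2 * h)) :
    2 * (Qmat h j ^ t) (Fin.cons p (Fin.cons p w)) (Fin.cons q (Fin.cons q' v))
      ≤ (Qmat h j ^ t) (Fin.cons p (Fin.cons p w)) (Fin.cons q (Fin.cons q v))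
        + (Qmat h j ^ t) (Fin.cons p (Fin.cons p w)) (Fin.cons q' (Fin.cons q' v)) := by
  have h1 : (Qmat h j ^ t) (Fin.cons p (Fin.cons p w) : Fin (j + 2) → ZMod (2 * h))
        (Fin.cons q (Fin.cons q' v))
      + (Qmat h j ^ t) (Fin.cons p (Fin.cons p w) : Fin (j + 2) → ZMod (2 * h))
        (Fin.cons q' (Fin.cons q v))
      ≤ (Qmat h j ^ t) (Fin.cons p (Fin.cons p w) : Fin (j + 2) → ZMod (2 * h))
        (Fin.cons q (Fin.cons q v))
      + (Qmat h j ^ t) (Fin.cons p (Fin.cons p w) : Fin (j + 2) → ZMod (2 * h))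
        (Fin.cons q' (Fin.cons q' v)) :=
    psd_two (fun x y => (Qmat h j ^ t)
      (Fin.cons p (Fin.cons p w) : Fin (j + 2) → ZMod (2 * h)) (Fin.cons x (Fin.cons y v)))
      (fun ξ => Qpow_psd h j t p w v ξ) q q'
  exact two_le_of_swap _ _ _ _ h1 (hswap t p p q' q w v)

end Vale.Agent.Lib.P162.H11CV
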