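import Mathlib
import Vale.Agent.Lib.P162.Defs

/-!
# P162, pool job H1: two cards that share a coin cannot share a coin again within `r` steps
when `2 ^ r ≤ h` (backup copy, helper11)
-/

namespace Vale.Agent.Lib.P162.H11

open Finset BigOperators Vale.Agent.Lib.P162

/-- The bit added by `move`. -/
def bit (h : ℕ) (c : ZMod h → Bool) (p : ZMod (2 * h)) : ZMod (2 * h) :=
  if xor (decide (h ≤ p.val)) (c (ZMod.cast p)) then 1 else 0

theorem move_eq (h : ℕ) (c : ZMod h → Bool) (p : ZMod (2 * h)) :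
    move h c p = 2 * p + bit h c p := rfl

theorem bit_cases (h : ℕ) (c : ZMod h → Bool) (p : ZMod (2 * h)) :
    bit h c p = 0 ∨ bit h c p = 1 := by
  unfold bit
  split_ifs
  · exact Or.inr rfl
  · exact Or.inl rfl

theorem two_mul_h (h : ℕ) : (2 : ZMod (2 * h)) * (h : ZMod (2 * h)) = 0 := by
  have := ZMod.natCast_self (2 * h)
  push_cast at this
  exact this

theorem val_add_h (h : ℕ) [NeZero h] (p : ZMod (2 * h)) :
    h ≤ (p + (h : ZMod (2 * h))).val ↔ ¬ h ≤ p.val := by
  have hpos : 0 < h := Nat.pos_of_ne_zero (NeZero.ne h)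
  have hp : p.val < 2 * h := ZMod.val_lt p
  rw [ZMod.val_add, ZMod.val_natCast, Nat.mod_eq_of_lt (by omega : h < 2 * h)]
  by_cases hph : h ≤ p.val
  · have h1 : (p.val + h) % (2 * h) = p.val - h := by
      rw [show p.val + h = (p.val - h) + 2 * h by omega, Nat.add_mod_right,
        Nat.mod_eq_of_lt (by omega)]
    rw [h1]
    constructor <;> intro hh <;> omega
  · rw [Nat.mod_eq_of_lt (by omega)]
    constructor <;> intro _ <;> omega

theorem cast_add_h (h : ℕ) [NeZero h] (p : ZMod (2 * h)) :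
    (ZMod.cast (p + (h : ZMod (2 * h))) : ZMod h) = ZMod.cast p := by
  rw [ZMod.cast_add (dvd_mul_left h 2), ZMod.cast_natCast (dvd_mul_left h 2), ZMod.natCast_self,
    add_zero]

theorem bits_differ (h : ℕ) [NeZero h] (c : ZMod h → Bool) (p : ZMod (2 * h)) :
    (bit h c p = 0 ∧ bit h c (p + (h : ZMod (2 * h))) = 1) ∨
      (bit h c p = 1 ∧ bit h c (p + (h : ZMod (2 * h))) = 0) := by
  have hv := val_add_h h p
  unfold bit
  rw [cast_add_h h p]
  by_cases h1 : h ≤ p.val
  · have h2 : ¬ h ≤ (p + (h : ZMod (2 * h))).val := fun hh => (hv.1 hh) h1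
    cases hcb : c (ZMod.cast p) <;> simp [h1, h2]
  · have h2 : h ≤ (p + (h : ZMod (2 * h))).val := hv.2 h1
    cases hcb : c (ZMod.cast p) <;> simp [h1, h2]

/-- The two positions differ by `d` (in one of the two orders). -/
def Near (h : ℕ) (d : ℕ) (z : Fin 2 → ZMod (2 * h)) : Prop :=
  z 1 - z 0 = (d : ZMod (2 * h)) ∨ z 0 - z 1 = (d : ZMod (2 * h))

/-- The two positions differ by some `d` with `1 ≤ d < 2 ^ t`. -/
def S (h : ℕ) (t : ℕ) (z : Fin 2 → ZMod (2 * h)) : Prop :=
  ∃ d, 1 ≤ d ∧ d < 2 ^ t ∧ Near h d z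

theorem near_one (h : ℕ) [NeZero h] (c : ZMod h → Bool) (w : Fin 2 → ZMod (2 * h))
    (hw : w 1 = w 0 + (h : ZMod (2 * h))) : Near h 1 (fun i => move h c (w i)) := by
  have h2h := two_mul_h h
  rcases bits_differ h c (w 0) with ⟨b0, b1⟩ | ⟨b0, b1⟩
  · refine Or.inl ?_
    show move h c (w 1) - move h c (w 0) = ((1 : ℕ) : ZMod (2 * h))
    rw [move_eq, move_eq, hw, b0, b1]
    push_cast
    linear_combination h2h
  · refine Or.inr ?_
    show move h c (w 0) - move h c (w 1) = ((1 : ℕ) : ZMod (2 * h))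
    rw [move_eq, move_eq, hw, b0, b1]
    push_cast
    linear_combination -h2h

theorem near_step (h : ℕ) (c : ZMod h → Bool) (z : Fin 2 → ZMod (2 * h)) (d : ℕ)
    (hd : 1 ≤ d) (hz : Near h d z) :
    ∃ d', 2 * d - 1 ≤ d' ∧ d' ≤ 2 * d + 1 ∧ Near h d' (fun i => move h c (z i)) := by
  have key1 : move h c (z 1) - move h c (z 0)
      = 2 * (z 1 - z 0) + (bit h c (z 1) - bit h c (z 0)) := by
    simp only [move_eq]; ring
  have key0 : move h c (z 0) - move h c (z 1)
      = 2 * (z 0 - z 1) + (bit h c (z 0) - bit h c (z 1)) := by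
    simp only [move_eq]; ring
  have hpred : ((2 * d - 1 : ℕ) : ZMod (2 * h)) = 2 * (d : ZMod (2 * h)) - 1 := by
    rw [Nat.cast_pred (by omega)]; push_cast; ring
  rcases hz with hz | hz
  · rcases bit_cases h c (z 0) with b0 | b0 <;> rcases bit_cases h c (z 1) with b1 | b1
    · exact ⟨2 * d, by omega, by omega, Or.inl
        (show move h c (z 1) - move h c (z 0) = ((2 * d : ℕ) : ZMod (2 * h)) by
          rw [key1, hz, b0, b1]; push_cast; ring)⟩
    · exact ⟨2 * d + 1, by omega, by omega, Or.inl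
        (show move h c (z 1) - move h c (z 0) = ((2 * d + 1 : ℕ) : ZMod (2 * h)) by
          rw [key1, hz, b0, b1]; push_cast; ring)⟩
    · exact ⟨2 * d - 1, by omega, by omega, Or.inl
        (show move h c (z 1) - move h c (z 0) = ((2 * d - 1 : ℕ) : ZMod (2 * h)) by
          rw [key1, hz, b0, b1, hpred]; ring)⟩
    · exact ⟨2 * d, by omega, by omega, Or.inl
        (show move h c (z 1) - move h c (z 0) = ((2 * d : ℕ) : ZMod (2 * h)) by
          rw [key1, hz, b0, b1]; push_cast; ring)⟩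
  · rcases bit_cases h c (z 0) with b0 | b0 <;> rcases bit_cases h c (z 1) with b1 | b1
    · exact ⟨2 * d, by omega, by omega, Or.inr
        (show move h c (z 0) - move h c (z 1) = ((2 * d : ℕ) : ZMod (2 * h)) by
          rw [key0, hz, b0, b1]; push_cast; ring)⟩
    · exact ⟨2 * d - 1, by omega, by omega, Or.inr
        (show move h c (z 0) - move h c (z 1) = ((2 * d - 1 : ℕ) : ZMod (2 * h)) by
          rw [key0, hz, b0, b1, hpred]; ring)⟩
    · exact ⟨2 * d + 1, by omega, by omega, Or.inr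
        (show move h c (z 0) - move h c (z 1) = ((2 * d + 1 : ℕ) : ZMod (2 * h)) by
          rw [key0, hz, b0, b1]; push_cast; ring)⟩
    · exact ⟨2 * d, by omega, by omega, Or.inr
        (show move h c (z 0) - move h c (z 1) = ((2 * d : ℕ) : ZMod (2 * h)) by
          rw [key0, hz, b0, b1]; push_cast; ring)⟩

theorem exists_coin (h k : ℕ) [NeZero h] (u v : Fin k → ZMod (2 * h))
    (hne : Kmat h k u v ≠ 0) : ∃ c : ZMod h → Bool, ∀ j, move h c (u j) = v j := by
  have hne' : stepProb h k u v ≠ 0 := hne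
  by_contra hcon
  push Not at hcon
  apply hne'
  have hemp : (univ.filter fun c : ZMod h → Bool => ∀ j, move h c (u j) = v j) = ∅ := by
    apply Finset.filter_eq_empty_iff.2
    intro c _ hc
    obtain ⟨j, hj⟩ := hcon c
    exact hj (hc j)
  unfold stepProb
  rw [hemp]
  simp

theorem support_S (h : ℕ) [NeZero h] (w : Fin 2 → ZMod (2 * h))
    (hw : w 1 = w 0 + (h : ZMod (2 * h))) :
    ∀ r, 1 ≤ r → ∀ v, (Kmat h 2 ^ r) w v ≠ 0 → S h r v := by
  intro r hr
  induction r, hr using Nat.le_induction with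
  | base =>
    intro v hne
    rw [pow_one] at hne
    obtain ⟨c, hc⟩ := exists_coin h 2 w v hne
    refine ⟨1, le_rfl, by norm_num, ?_⟩
    have hn := near_one h c w hw
    have hv : (fun i => move h c (w i)) = v := funext hc
    rwa [hv] at hn
  | succ r hr ih =>
    intro v hne
    rw [pow_succ, Matrix.mul_apply] at hne
    obtain ⟨u, -, hu⟩ := Finset.exists_ne_zero_of_sum_ne_zero hne
    have hu1 : (Kmat h 2 ^ r) w u ≠ 0 := left_ne_zero_of_mul hu
    have hu2 : Kmat h 2 u v ≠ 0 := right_ne_zero_of_mul hu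
    obtain ⟨d, hd1, hd2, hnear⟩ := ih u hu1
    obtain ⟨c, hc⟩ := exists_coin h 2 u v hu2
    obtain ⟨d', hd'1, hd'2, hnear'⟩ := near_step h c u d hd1 hnear
    have hv : (fun i => move h c (u i)) = v := funext hc
    rw [hv] at hnear'
    refine ⟨d', by omega, ?_, hnear'⟩
    rw [pow_succ]
    omega

/-- Job H1 (exact statement). -/
theorem partner_gap (h : ℕ) [NeZero h] (r : ℕ) (hr1 : 1 ≤ r) (hr : 2 ^ r ≤ h)
    (w v : Fin 2 → ZMod (2 * h)) (hw : w 1 = w 0 + (h : ZMod (2 * h)))
    (hv : v 1 = v 0 + (h : ZMod (2 * h))) : (Kmat h 2 ^ r) w v = 0 := by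
  by_contra hne
  obtain ⟨d, hd1, hd2, hnear⟩ := support_S h w hw r hr1 v hne
  have hdh : d < h := lt_of_lt_of_le hd2 hr
  have h2h := two_mul_h h
  have hcast : (h : ZMod (2 * h)) = (d : ZMod (2 * h)) := by
    rcases hnear with hn | hn
    · rw [← hn, hv]; ring
    · rw [← hn, hv]; linear_combination h2h
  rw [ZMod.natCast_eq_natCast_iff] at hcast
  have heq := Nat.ModEq.eq_of_lt_of_lt hcast (by omega) (by omega)
  omega

end Vale.Agent.Lib.P162.H11
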